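import Mathlib

/-!
# P355 (mutually unbiased bases in dimension six): no real basis is unbiased to the standard basis

Three pairwise orthogonal real vectors all of whose coordinates have square `1/n` exist only if
`4 ∣ n`.  Hence in dimension six an orthonormal basis unbiased to the standard basis cannot contain
three vectors with real coordinates.
-/

namespace Vale.Agent.Results.P355.NoRealBasis

open Finset

theorem four_dvd (n : ℕ) (s t u : Fin n → ℝ)
    (hs : ∀ j, s j ^ 2 = 1 / n) (ht : ∀ j, t j ^ 2 = 1 / n) (hu : ∀ j, u j ^ 2 = 1 / n)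
    (hst : ∑ j, s j * t j = 0) (hsu : ∑ j, s j * u j = 0) (htu : ∑ j, t j * u j = 0) :
    4 ∣ n := by
  rcases Nat.eq_zero_or_pos n with rfl | hn
  · simp
  have hn0 : (n : ℝ) ≠ 0 := by positivity
  have hex : ∀ j, ∃ e : ℕ, (s j + t j) * (s j + u j) = 4 * (1 / n) * e := by
    intro j
    have h1 : t j = s j ∨ t j = - s j := sq_eq_sq_iff_eq_or_eq_neg.1 (by rw [ht, hs])
    have h2 : u j = s j ∨ u j = - s j := sq_eq_sq_iff_eq_or_eq_neg.1 (by rw [hu, hs])
    rcases h1 with h1 | h1 <;> rcases h2 with h2 | h2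
    · refine ⟨1, ?_⟩
      rw [h1, h2, ← hs j]
      push_cast
      ring
    · exact ⟨0, by rw [h1, h2]; simp⟩
    · exact ⟨0, by rw [h1, h2]; simp⟩
    · exact ⟨0, by rw [h1, h2]; simp⟩
  choose e he using hex
  have hsum : ∑ j, (s j + t j) * (s j + u j) = 1 := by
    have h1 : ∀ j, (s j + t j) * (s j + u j)
        = 1 / n + s j * u j + s j * t j + t j * u j := by
      intro j
      rw [← hs j]
      ring
    simp only [h1, sum_add_distrib, hst, hsu, htu]
    simp [hn0]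
  simp only [he] at hsum
  rw [← mul_sum] at hsum
  have h2 : (4 : ℝ) * ∑ j, (e j : ℝ) = n := by
    field_simp at hsum
    linarith
  have h3 : 4 * ∑ j, e j = n := by
    exact_mod_cast h2
  exact ⟨_, h3.symm⟩

theorem result :
    (∀ (n : ℕ) (s t u : Fin n → ℝ),
      (∀ j, s j ^ 2 = 1 / n) → (∀ j, t j ^ 2 = 1 / n) → (∀ j, u j ^ 2 = 1 / n) →
      ∑ j, s j * t j = 0 → ∑ j, s j * u j = 0 → ∑ j, t j * u j = 0 → 4 ∣ n) ∧
    (¬ ∃ s t u : Fin 6 → ℝ,
      (∀ j, s j ^ 2 = 1 / 6) ∧ (∀ j, t j ^ 2 = 1 / 6) ∧ (∀ j, u j ^ 2 = 1 / 6) ∧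
      ∑ j, s j * t j = 0 ∧ ∑ j, s j * u j = 0 ∧ ∑ j, t j * u j = 0) := by
  refine ⟨four_dvd, ?_⟩
  rintro ⟨s, t, u, hs, ht, hu, hst, hsu, htu⟩
  have := four_dvd 6 s t u (by simpa using hs) (by simpa using ht) (by simpa using hu) hst hsu htu
  omega

end Vale.Agent.Results.P355.NoRealBasis
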